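import Mathlib
import Vale.Agent.P123.Main

/-!
Crouzeix's conjecture: the best constant for numerical ranges is two.
-/

namespace Vale.Agent.Results.P123.Crouzeix

open Vale.Agent.P123 Polynomial

universe u

/-- The inequality with constant two holds, and no smaller constant works. -/
theorem result :
    (∀ (H : Type u) (_ : NormedAddCommGroup H) (_ : InnerProductSpace ℂ H) (_ : CompleteSpace H)
      (_ : Nontrivial H) (A : H →L[ℂ] H) (P : ℂ[X]),
      ‖aeval A P‖ ≤ 2 * sSup ((fun z => ‖P.eval z‖) '' numRange A)) ∧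
    IsLeast {c : ℝ | ∀ (H : Type) (_ : NormedAddCommGroup H) (_ : InnerProductSpace ℂ H)
      (_ : CompleteSpace H) (_ : Nontrivial H) (A : H →L[ℂ] H) (P : ℂ[X]),
      ‖aeval A P‖ ≤ c * sSup ((fun z => ‖P.eval z‖) '' numRange A)} 2 :=
  ⟨fun _ _ _ _ _ A P => crouzeix_sSup A P, fun _ _ _ _ _ A P => crouzeix_sSup A P,
    fun _ hc => two_le_of_bound fun A P => hc _ inferInstance inferInstance inferInstance
      inferInstance A P⟩

end Vale.Agent.Results.P123.Crouzeix
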